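import Vale.Agent.P281.H64.TS.Spec

/-!
# P281, project T-S, block A1 (helper559): good coverings by small Euclidean balls

The function `z ↦ |θ z - c|²` (Euclidean norm) is convex near `θ⁻¹ c`, for a diffeomorphism `θ` of
class `C²`: this is read off from the first order condition `f y ≥ f x + L_x (y - x)`. So the traces
of small Euclidean balls in the other sheets are convex; then compactness.
-/

open Set Filter Metric MeasureTheory Vale.Agent.P272.K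
open scoped Topology ContDiff ComplexConjugate

noncomputable section

namespace Vale.Agent.P281.H559.TS

open Vale.Agent.P281.H64.TK Vale.Agent.P281.H64.TK.TS

variable {d : ℕ}

/-- The square of the Euclidean norm. -/
def q (v : Cm d) : ℝ := ∑ k, ‖v k‖ ^ 2

/-- The real inner product. -/
def ip (u v : Cm d) : ℝ := ∑ k, (conj (u k) * v k).re

theorem term_le_q (v : Cm d) (k : Fin d) : ‖v k‖ ^ 2 ≤ q v :=
  Finset.single_le_sum (f := fun k => ‖v k‖ ^ 2) (fun _ _ => sq_nonneg _) (Finset.mem_univ k)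

theorem sq_le_q (v : Cm d) : ‖v‖ ^ 2 ≤ q v := by
  have h0 : 0 ≤ q v := Finset.sum_nonneg fun _ _ => sq_nonneg _
  have h : ‖v‖ ≤ √(q v) :=
    (pi_norm_le_iff_of_nonneg (Real.sqrt_nonneg _)).2 fun k => Real.le_sqrt_of_sq_le (term_le_q v k)
  calc ‖v‖ ^ 2 ≤ √(q v) ^ 2 := by gcongr
    _ = q v := Real.sq_sqrt h0

theorem q_add (u v : Cm d) : q (u + v) = q u + 2 * ip u v + q v := by
  unfold q ip
  rw [Finset.mul_sum, ← Finset.sum_add_distrib, ← Finset.sum_add_distrib]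
  refine Finset.sum_congr rfl fun k _ => ?_
  rw [Pi.add_apply, ← Complex.normSq_eq_norm_sq, ← Complex.normSq_eq_norm_sq,
    ← Complex.normSq_eq_norm_sq]
  simp only [Complex.normSq_apply, Complex.add_re, Complex.add_im, Complex.mul_re, Complex.conj_re,
    Complex.conj_im]
  ring

theorem ip_add (u v w : Cm d) : ip u (v + w) = ip u v + ip u w := by
  unfold ip
  rw [← Finset.sum_add_distrib]
  refine Finset.sum_congr rfl fun k _ => ?_
  rw [Pi.add_apply, mul_add, Complex.add_re]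

theorem ip_smul (a : ℝ) (u v : Cm d) : ip u (a • v) = a * ip u v := by
  unfold ip
  rw [Finset.mul_sum]
  refine Finset.sum_congr rfl fun k _ => ?_
  rw [Pi.smul_apply, Complex.real_smul]
  simp only [Complex.mul_re, Complex.ofReal_re, Complex.ofReal_im, Complex.conj_re, Complex.conj_im,
    Complex.mul_im]
  ring

theorem abs_ip_le (u v : Cm d) : |ip u v| ≤ d * (‖u‖ * ‖v‖) := by
  unfold ip
  refine (Finset.abs_sum_le_sum_abs _ _).trans ?_
  refine (Finset.sum_le_card_nsmul _ _ (‖u‖ * ‖v‖) fun k _ => ?_).trans ?_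
  · refine (Complex.abs_re_le_norm _).trans ?_
    rw [norm_mul, Complex.norm_conj]
    exact mul_le_mul (norm_le_pi_norm u k) (norm_le_pi_norm v k) (norm_nonneg _) (norm_nonneg _)
  · simp

/-- The linear form `v ↦ ip u v`. -/
def ipL (u : Cm d) : Cm d →ₗ[ℝ] ℝ where
  toFun := ip u
  map_add' := ip_add u
  map_smul' a v := by rw [ip_smul, RingHom.id_apply, smul_eq_mul]

/-- The first order condition of convexity. -/
theorem convexOn_of_first (s : Set (Cm d)) (hs : Convex ℝ s) (f : Cm d → ℝ)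
    (L : Cm d → Cm d →ₗ[ℝ] ℝ) (h : ∀ x ∈ s, ∀ y ∈ s, f x + L x (y - x) ≤ f y) :
    ConvexOn ℝ s f := by
  refine ⟨hs, fun x hx y hy a b ha hb hab => ?_⟩
  have hz : a • x + b • y ∈ s := hs hx hy ha hb hab
  obtain ⟨z, hzd⟩ : ∃ z, z = a • x + b • y := ⟨_, rfl⟩
  rw [← hzd] at hz ⊢
  have h1 := mul_le_mul_of_nonneg_left (h z hz x hx) ha
  have h2 := mul_le_mul_of_nonneg_left (h z hz y hy) hb
  have h3 : a * L z (x - z) + b * L z (y - z) = 0 := by
    have h4 : a • (x - z) + b • (y - z) = 0 := by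
      have h5 : a • z + b • z = z := by rw [← add_smul, hab, one_smul]
      calc a • (x - z) + b • (y - z) = (a • x + b • y) - (a • z + b • z) := by
            rw [smul_sub, smul_sub]; abel
        _ = 0 := by rw [h5, ← hzd, sub_self]
    rw [← smul_eq_mul, ← smul_eq_mul, ← map_smul, ← map_smul, ← map_add, h4, map_zero]
  have h6 : f z = a * f z + b * f z := by rw [← add_mul, hab, one_mul]
  simp only [smul_eq_mul]
  nlinarith

theorem convexOn_q (c : Cm d) : ConvexOn ℝ univ (fun z => q (z - c)) := by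
  refine convexOn_of_first univ convex_univ _ (fun x => (2 : ℝ) • ipL (x - c)) fun x _ y _ => ?_
  have h : y - c = (x - c) + (y - x) := by abel
  change q (x - c) + 2 * ip (x - c) (y - x) ≤ q (y - c)
  rw [h, q_add]
  have : 0 ≤ q (y - x) := Finset.sum_nonneg fun _ _ => sq_nonneg _
  linarith

theorem mem_eb {c z : Cm d} {r : ℝ} : z ∈ eb c r ↔ q (z - c) < r ^ 2 := Iff.rfl

theorem convex_eb (c : Cm d) (r : ℝ) : Convex ℝ (eb c r) := by
  have h := (convexOn_q c).convex_lt (r ^ 2)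
  have h2 : {x ∈ (univ : Set (Cm d)) | q (x - c) < r ^ 2} = eb c r := by
    ext z; simp [mem_eb]
  rwa [h2] at h

theorem eb_sub_ball (c : Cm d) {r : ℝ} (hr : 0 < r) : eb c r ⊆ ball c r := by
  intro z hz
  rw [mem_ball, dist_eq_norm]
  exact lt_of_pow_lt_pow_left₀ 2 hr.le (lt_of_le_of_lt (sq_le_q _) hz)

theorem isOpen_eb (c : Cm d) (r : ℝ) : IsOpen (eb c r) :=
  isOpen_lt (by fun_prop) continuous_const

/-- **The local convexity lemma.** -/
theorem local_convex (θ θ' : Cm d → Cm d) (z₀ : Cm d) (hθ : ContDiffAt ℝ 2 θ z₀)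
    (hθ' : ContDiffAt ℝ 1 θ' (θ z₀)) (hinv : ∀ᶠ u in 𝓝 z₀, θ' (θ u) = u) :
    ∃ δ > 0, ∀ c' ∈ ball (θ z₀) δ, ConvexOn ℝ (ball z₀ δ) (fun z => q (θ z - c')) := by
  obtain ⟨K1, t1, ht1, hL1⟩ := hθ'.exists_lipschitzOnWith
  have hfd : ContDiffAt ℝ 1 (fderiv ℝ θ) z₀ := hθ.fderiv_right (by norm_num)
  obtain ⟨K2, t2, ht2, hL2⟩ := hfd.exists_lipschitzOnWith
  have hpos : (0 : ℝ) < 4 * (d * K2 * K1 ^ 2) + 1 := by positivity
  obtain ⟨η, hη⟩ : ∃ η : ℝ, η = 1 / (4 * (d * K2 * K1 ^ 2) + 1) := ⟨_, rfl⟩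
  have hη0 : 0 < η := by rw [hη]; positivity
  have hη1 : 4 * (d * K2 * K1 ^ 2) * η ≤ 1 := by
    rw [hη, mul_one_div, div_le_one hpos]; linarith
  have hev : ∀ᶠ u in 𝓝 z₀, θ' (θ u) = u ∧ θ u ∈ t1 ∧ u ∈ t2 ∧ ContDiffAt ℝ 2 θ u ∧
      ‖θ u - θ z₀‖ < η := by
    have hc : Tendsto θ (𝓝 z₀) (𝓝 (θ z₀)) := hθ.continuousAt
    have h1 : ∀ᶠ u in 𝓝 z₀, θ u ∈ t1 := hc ht1
    have h2 : ∀ᶠ u in 𝓝 z₀, u ∈ t2 := ht2
    have h3 : ∀ᶠ u in 𝓝 z₀, ContDiffAt ℝ 2 θ u := hθ.eventually (by norm_num)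
    have h4 : ∀ᶠ u in 𝓝 z₀, ‖θ u - θ z₀‖ < η := by
      have := hc (ball_mem_nhds (θ z₀) hη0)
      filter_upwards [this] with u hu
      rwa [mem_preimage, mem_ball, dist_eq_norm] at hu
    filter_upwards [hinv, h1, h2, h3, h4] with u a b c d e
    exact ⟨a, b, c, d, e⟩
  obtain ⟨δ, hδ0, hδ⟩ := Metric.eventually_nhds_iff_ball.1 hev
  refine ⟨min δ η, lt_min hδ0 hη0, fun c' hc' => ?_⟩
  refine convexOn_of_first _ (convex_ball _ _) _
    (fun x => (2 : ℝ) • (ipL (θ x - c')).comp (fderiv ℝ θ x : Cm d →ₗ[ℝ] Cm d)) ?_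
  intro x hx y hy
  have hsub : ball z₀ (min δ η) ⊆ ball z₀ δ := ball_subset_ball (min_le_left _ _)
  obtain ⟨hx1, hx2, hx3, -, hx5⟩ := hδ x (hsub hx)
  obtain ⟨hy1, hy2, -, -, -⟩ := hδ y (hsub hy)
  change q (θ x - c') + 2 * ip (θ x - c') (fderiv ℝ θ x (y - x)) ≤ q (θ y - c')
  have hseg : segment ℝ x y ⊆ ball z₀ δ :=
    (convex_ball z₀ δ).segment_subset (hsub hx) (hsub hy)
  have hii : ‖θ y - θ x - fderiv ℝ θ x (y - x)‖ ≤ (K2 * ‖y - x‖) * ‖y - x‖ := by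
    refine Convex.norm_image_sub_le_of_norm_hasFDerivWithin_le' (𝕜 := ℝ) (f' := fderiv ℝ θ)
      (s := segment ℝ x y) (fun z hz => ?_) (fun z hz => ?_) (convex_segment x y)
      (left_mem_segment ℝ x y) (right_mem_segment ℝ x y)
    · obtain ⟨-, -, -, hd, -⟩ := hδ z (hseg hz)
      exact (hd.differentiableAt (by norm_num)).hasFDerivAt.hasFDerivWithinAt
    · obtain ⟨-, -, hz3, -, -⟩ := hδ z (hseg hz)
      have h := hL2.dist_le_mul z hz3 x hx3
      rw [dist_eq_norm, dist_eq_norm] at h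
      refine h.trans ?_
      gcongr
      exact norm_sub_le_of_mem_segment hz
  have hi : ‖y - x‖ ≤ K1 * ‖θ y - θ x‖ := by
    have h := hL1.dist_le_mul (θ y) hy2 (θ x) hx2
    rwa [dist_eq_norm, dist_eq_norm, hx1, hy1] at h
  have hc2 : ‖θ x - c'‖ ≤ 2 * η := by
    have h1 : ‖θ z₀ - c'‖ < η := by
      rw [← dist_eq_norm, dist_comm]
      exact lt_of_lt_of_le (mem_ball.1 hc') (min_le_right _ _)
    calc ‖θ x - c'‖ = ‖(θ x - θ z₀) + (θ z₀ - c')‖ := by congr 1; abel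
      _ ≤ ‖θ x - θ z₀‖ + ‖θ z₀ - c'‖ := norm_add_le _ _
      _ ≤ 2 * η := by linarith
  have e1 : θ y - c' = (θ x - c') + (θ y - θ x) := by abel
  have e2 : θ y - θ x = fderiv ℝ θ x (y - x) + (θ y - θ x - fderiv ℝ θ x (y - x)) := by abel
  have e3 : q (θ y - c') = q (θ x - c') + 2 * ip (θ x - c') (θ y - θ x) + q (θ y - θ x) := by
    rw [e1, q_add]
  have e4 : ip (θ x - c') (θ y - θ x) = ip (θ x - c') (fderiv ℝ θ x (y - x)) +
      ip (θ x - c') (θ y - θ x - fderiv ℝ θ x (y - x)) := by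
    conv_lhs => rw [e2]
    rw [ip_add]
  have e5 : -(d * (2 * η * (K2 * ‖y - x‖ * ‖y - x‖))) ≤
      ip (θ x - c') (θ y - θ x - fderiv ℝ θ x (y - x)) := by
    refine (neg_le_neg ?_).trans (abs_le.1 (abs_ip_le _ _)).1
    gcongr
  have e6 : ‖θ y - θ x‖ ^ 2 ≤ q (θ y - θ x) := sq_le_q _
  have e7 : ‖y - x‖ * ‖y - x‖ ≤ K1 ^ 2 * ‖θ y - θ x‖ ^ 2 := by
    calc ‖y - x‖ * ‖y - x‖ ≤ (K1 * ‖θ y - θ x‖) * (K1 * ‖θ y - θ x‖) := by gcongr
      _ = K1 ^ 2 * ‖θ y - θ x‖ ^ 2 := by ring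
  have e8 : 2 * (d * (2 * η * (K2 * ‖y - x‖ * ‖y - x‖))) ≤ ‖θ y - θ x‖ ^ 2 := by
    calc 2 * (d * (2 * η * (K2 * ‖y - x‖ * ‖y - x‖)))
        = (4 * d * K2 * η) * (‖y - x‖ * ‖y - x‖) := by ring
      _ ≤ (4 * d * K2 * η) * (K1 ^ 2 * ‖θ y - θ x‖ ^ 2) := by gcongr
      _ = (4 * (d * K2 * K1 ^ 2) * η) * ‖θ y - θ x‖ ^ 2 := by ring
      _ ≤ 1 * ‖θ y - θ x‖ ^ 2 := by gcongr
      _ = _ := one_mul _
  rw [e3, e4]
  linarith

section

variable {E Γ : Type} [TopologicalSpace E] [Group Γ] [MulAction Γ E]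

/-- The convexity of the trace of the ball `eb c' r` of the sheet `j` in the ball `eb c r` of the
sheet `i`. -/
def Cvx (S : Sheets d E Γ) (i j : Fin S.N) (c c' : Cm d) (r : ℝ) : Prop :=
  Convex ℝ {z | z ∈ eb c r ∧ S.σ i z ∈ S.σ j '' eb c' r}

theorem inj' (S : Sheets d E Γ) {i : Fin S.N} {z w : Cm d} (hz : z ∈ ball (0 : Cm d) 3)
    (hw : w ∈ ball (0 : Cm d) 3) (h : S.σ i z = S.σ i w) : z = w :=
  (S.inj i z hz w hw 1 (by rw [one_smul, h])).2

theorem tends (S : Sheets d E Γ) (i : Fin S.N) {z : Cm d} (hz : z ∈ ball (0 : Cm d) 3) :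
    Tendsto (S.σ i) (𝓝 z) (𝓝 (S.σ i z)) := (S.map_nhds i z hz).le

theorem hol' (S : Sheets d E Γ) {i j : Fin S.N} {z w : Cm d} (hz : z ∈ ball (0 : Cm d) 3)
    (hw : w ∈ ball (0 : Cm d) 3) (h : S.σ i z = S.σ j w) :
    ∃ θ : Cm d → Cm d, AnalyticAt ℂ θ z ∧ θ z = w ∧ ∀ᶠ u in 𝓝 z, S.σ i u = S.σ j (θ u) := by
  obtain ⟨θ, h1, h2, h3⟩ := S.hol i j z hz w hw 1 (by rw [one_smul, h])
  refine ⟨θ, h1, h2, ?_⟩
  filter_upwards [h3] with u hu
  rwa [one_smul] at hu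

theorem contDiffAt_real {θ : Cm d → Cm d} {z : Cm d} (h : AnalyticAt ℂ θ z) (n : ℕ∞) :
    ContDiffAt ℝ n θ z := by
  have h2 : AnalyticAt ℝ θ z := h.restrictScalars
  exact h2.contDiffAt

theorem key [T2Space E] (S : Sheets d E Γ) (i j : Fin S.N) (z₀ w₀ : Cm d) (hz : z₀ ∈ ball (0 : Cm d) 3)
    (hw : w₀ ∈ ball (0 : Cm d) 3) :
    ∃ δ > 0, ∀ c ∈ ball z₀ δ, ∀ c' ∈ ball w₀ δ, ∀ r, 0 < r → r < δ → Cvx S i j c c' r := by
  by_cases h : S.σ i z₀ = S.σ j w₀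
  · obtain ⟨θ, h1, h2, h3⟩ := hol' S hz hw h
    obtain ⟨θ', g1, g2, g3⟩ := hol' S hw hz h.symm
    have hc : Tendsto θ (𝓝 z₀) (𝓝 w₀) := by
      have := h1.continuousAt.tendsto
      rwa [h2] at this
    have hc' : Tendsto θ' (𝓝 w₀) (𝓝 z₀) := by
      have := g1.continuousAt.tendsto
      rwa [g2] at this
    have b3 : ∀ᶠ u in 𝓝 z₀, θ u ∈ ball (0 : Cm d) 3 := hc (isOpen_ball.mem_nhds hw)
    have hinv : ∀ᶠ u in 𝓝 z₀, θ' (θ u) = u := by
      have a1 : ∀ᶠ u in 𝓝 z₀, S.σ j (θ u) = S.σ i (θ' (θ u)) := hc.eventually g3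
      have a2 : ∀ᶠ u in 𝓝 z₀, θ' (θ u) ∈ ball (0 : Cm d) 3 :=
        (hc'.comp hc) (isOpen_ball.mem_nhds hz)
      have a3 : ∀ᶠ u in 𝓝 z₀, u ∈ ball (0 : Cm d) 3 := isOpen_ball.mem_nhds hz
      filter_upwards [h3, a1, a2, a3] with u u1 u2 u3 u4
      exact (inj' S u4 u3 (u1.trans u2)).symm
    obtain ⟨δ, hδ0, hδ⟩ := local_convex θ θ' z₀ (contDiffAt_real h1 2)
      (by rw [h2]; exact contDiffAt_real g1 1) hinv
    rw [h2] at hδ
    obtain ⟨δ₁, hδ₁, hb⟩ := Metric.eventually_nhds_iff_ball.1 (h3.and b3)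
    obtain ⟨δ₂, hδ₂, hb₂⟩ := Metric.isOpen_iff.1 isOpen_ball w₀ hw
    refine ⟨min (min δ δ₁) δ₂ / 2, by positivity, fun c hc c' hc' r hr0 hr => ?_⟩
    have m1 : min (min δ δ₁) δ₂ ≤ δ := (min_le_left _ _).trans (min_le_left _ _)
    have m2 : min (min δ δ₁) δ₂ ≤ δ₁ := (min_le_left _ _).trans (min_le_right _ _)
    have m3 : min (min δ δ₁) δ₂ ≤ δ₂ := min_le_right _ _
    have s1 : eb c r ⊆ ball z₀ (min (min δ δ₁) δ₂) := fun z hz' => by
      have t1 := mem_ball.1 (eb_sub_ball c hr0 hz')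
      have t2 := mem_ball.1 hc
      rw [mem_ball]
      linarith [dist_triangle z c z₀]
    have s2 : eb c' r ⊆ ball w₀ (min (min δ δ₁) δ₂) := fun z hz' => by
      have t1 := mem_ball.1 (eb_sub_ball c' hr0 hz')
      have t2 := mem_ball.1 hc'
      rw [mem_ball]
      linarith [dist_triangle z c' w₀]
    have hc'' : c' ∈ ball w₀ δ := by
      have t2 := mem_ball.1 hc'
      rw [mem_ball]
      have : 0 < min (min δ δ₁) δ₂ := by positivity
      linarith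
    have hset : {z | z ∈ eb c r ∧ S.σ i z ∈ S.σ j '' eb c' r} =
        eb c r ∩ {z ∈ ball z₀ δ | q (θ z - c') < r ^ 2} := by
      ext z
      constructor
      · rintro ⟨ha, w, hw', hwz⟩
        have hz1 := s1 ha
        obtain ⟨k1, k2⟩ := hb z (ball_subset_ball m2 hz1)
        refine ⟨ha, ball_subset_ball m1 hz1, ?_⟩
        have hw3 : w ∈ ball (0 : Cm d) 3 := hb₂ (ball_subset_ball m3 (s2 hw'))
        have e : w = θ z := inj' S hw3 k2 (hwz.trans k1)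
        rw [← e]
        exact hw'
      · rintro ⟨ha, hz1, hz2⟩
        obtain ⟨k1, k2⟩ := hb z (ball_subset_ball m2 (s1 ha))
        exact ⟨ha, θ z, hz2, k1.symm⟩
    unfold Cvx
    rw [hset]
    exact (convex_eb c r).inter ((hδ c' hc'').convex_lt (r ^ 2))
  · obtain ⟨U, V, hU, hV, hzU, hwV, hUV⟩ := t2_separation h
    have a1 : ∀ᶠ u in 𝓝 z₀, S.σ i u ∈ U := tends S i hz (hU.mem_nhds hzU)
    have a2 : ∀ᶠ u in 𝓝 w₀, S.σ j u ∈ V := tends S j hw (hV.mem_nhds hwV)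
    obtain ⟨δ₁, hδ₁, hb₁⟩ := Metric.eventually_nhds_iff_ball.1 a1
    obtain ⟨δ₂, hδ₂, hb₂⟩ := Metric.eventually_nhds_iff_ball.1 a2
    refine ⟨min δ₁ δ₂ / 2, by positivity, fun c hc c' hc' r hr0 hr => ?_⟩
    have m1 : min δ₁ δ₂ ≤ δ₁ := min_le_left _ _
    have m2 : min δ₁ δ₂ ≤ δ₂ := min_le_right _ _
    have hset : {z | z ∈ eb c r ∧ S.σ i z ∈ S.σ j '' eb c' r} = ∅ := by
      ext z
      simp only [mem_ofPred_eq, mem_empty_iff_false, iff_false, not_and]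
      rintro ha ⟨w, hw', hwz⟩
      have t1 := mem_ball.1 (eb_sub_ball c hr0 ha)
      have t2 := mem_ball.1 hc
      have t3 := mem_ball.1 (eb_sub_ball c' hr0 hw')
      have t4 := mem_ball.1 hc'
      have k1 : S.σ i z ∈ U := hb₁ z (mem_ball.2 (by linarith [dist_triangle z c z₀]))
      have k2 : S.σ j w ∈ V := hb₂ w (mem_ball.2 (by linarith [dist_triangle w c' w₀]))
      rw [hwz] at k2
      exact Set.disjoint_left.1 hUV k1 k2
    unfold Cvx
    rw [hset]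
    exact convex_empty

theorem good_stmt : GoodStmt := by
  intro d E Γ _ _ _ _ _ _ S hd ε hε
  have hK : IsCompact (closedBall (0 : Cm d) 1) := isCompact_closedBall _ _
  have hK3 : closedBall (0 : Cm d) 1 ⊆ ball (0 : Cm d) 3 := closedBall_subset_ball (by norm_num)
  have huni : ∀ᶠ r in 𝓝 (0 : ℝ), ∀ i j : Fin S.N,
      ∀ p ∈ closedBall (0 : Cm d) 1 ×ˢ closedBall (0 : Cm d) 1, 0 < r → Cvx S i j p.1 p.2 r := by
    rw [Filter.eventually_all]
    intro i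
    rw [Filter.eventually_all]
    intro j
    refine (hK.prod hK).eventually_forall_of_forall_eventually
      (P := fun r p => 0 < r → Cvx S i j p.1 p.2 r) fun p hp => ?_
    obtain ⟨δ, hδ0, hδ⟩ := key S i j p.1 p.2 (hK3 hp.1) (hK3 hp.2)
    rw [Metric.eventually_nhds_iff_ball]
    refine ⟨δ, hδ0, fun z hz h0 => ?_⟩
    rw [← ball_prod_same, mem_prod] at hz
    obtain ⟨hz1, hz2⟩ := hz
    rw [← Prod.mk.eta (p := p), ← ball_prod_same, mem_prod] at hz2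
    refine hδ _ hz2.1 _ hz2.2 _ h0 ?_
    rw [mem_ball, Real.dist_eq, sub_zero] at hz1
    exact (le_abs_self _).trans_lt hz1
  obtain ⟨δ, hδ0, hδ⟩ := Metric.eventually_nhds_iff_ball.1 huni
  obtain ⟨r, hr⟩ : ∃ r : ℝ, r = min (min δ ε) 1 / 2 := ⟨_, rfl⟩
  have hm : 0 < min (min δ ε) 1 := by positivity
  have hr0 : 0 < r := by rw [hr]; positivity
  have hrδ : r < δ := by
    have : min (min δ ε) 1 ≤ δ := (min_le_left _ _).trans (min_le_left _ _)
    linarith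
  have hrε : r < ε := by
    have : min (min δ ε) 1 ≤ ε := (min_le_left _ _).trans (min_le_right _ _)
    linarith
  have hr1 : 2 * r ≤ 1 := by
    have : min (min δ ε) 1 ≤ 1 := min_le_right _ _
    linarith
  have hcv := hδ r (by rw [mem_ball, Real.dist_eq, sub_zero, abs_of_pos hr0]; exact hrδ)
  obtain ⟨t, ht1, ht2⟩ := hK.elim_nhds_subcover (fun c => eb c (r / 2)) fun c _ =>
    (isOpen_eb c (r / 2)).mem_nhds (by
      rw [mem_eb]
      have : q (c - c) = 0 := by simp [q]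
      rw [this]; positivity)
  refine ⟨Fin S.N × {c // c ∈ t}, inferInstance, ⟨fun a => a.1, fun a => a.2.1, fun _ => r,
    fun _ => hr0, ?_, ?_, ?_⟩, fun _ => hrε⟩
  · rintro ⟨i, c, hc⟩ z hz
    have t1 := mem_ball.1 (eb_sub_ball c (by positivity : 0 < 2 * r) hz)
    have t2 := mem_closedBall.1 (ht1 c hc)
    rw [mem_ball]
    linarith [dist_triangle z c 0]
  · intro e
    obtain ⟨γ, i, z, hz, hze⟩ := S.cover e
    have hz1 : z ∈ closedBall (0 : Cm d) 1 := by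
      rw [mem_closedBall, dist_zero_right]; exact hz.le
    obtain ⟨c, hc, hzc⟩ := mem_iUnion₂.1 (ht2 hz1)
    refine ⟨(i, ⟨c, hc⟩), z, hzc, ?_⟩
    rw [Subsingleton.elim γ 1, one_smul] at hze
    exact hze
  · rintro ⟨i, c, hc⟩ ⟨j, c', hc'⟩
    exact hcv i j (c, c') ⟨ht1 c hc, ht1 c' hc'⟩ hr0

end

end Vale.Agent.P281.H559.TS
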